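import Mathlib
import Vale.Agent.P262.SigMain

/-!
Signed prefix sums in the Euclidean ball are at most a multiple of `√(d log (d + 1))`.
-/

namespace Vale.Agent.Results.P262.SigmaBound

open Finset

theorem result : ∃ C : ℝ, 0 < C ∧ ∀ (d N : ℕ) (v : Fin N → EuclideanSpace ℝ (Fin d)),
    (∀ i, ‖v i‖ ≤ 1) → ∃ ε : Fin N → ℝ, (∀ i, ε i = 1 ∨ ε i = -1) ∧ ∀ k : ℕ, k ≤ N →
      ‖∑ i ∈ univ.filter (fun i : Fin N => (i : ℕ) < k), ε i • v i‖
        ≤ C * Real.sqrt (d * Real.log (d + 1)) :=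
  ⟨28000, by norm_num, fun d N v hv => Vale.Agent.P262.Sig.exists_signs_bound d N v hv⟩

end Vale.Agent.Results.P262.SigmaBound
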