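import Mathlib
import Vale.Agent.P262.Step
import Vale.Agent.P262.Lower
import Vale.Agent.P262.Main

/-!
The Euclidean Steinitz constant has order of growth `√d`.
-/

namespace Vale.Agent.Results.P262.SteinitzSqrt

open Finset

theorem result : ∃ c C : ℝ, 0 < c ∧ 0 < C ∧ ∀ d : ℕ, 1 ≤ d →
    (∀ (N : ℕ) (v : Fin N → EuclideanSpace ℝ (Fin d)), (∀ i, ‖v i‖ ≤ 1) → ∑ i, v i = 0 →
      ∃ π : Equiv.Perm (Fin N), ∀ k : ℕ, k ≤ N →
        ‖∑ i ∈ univ.filter (fun i : Fin N => (i : ℕ) < k), v (π i)‖ ≤ C * Real.sqrt d) ∧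
    (∃ (N : ℕ) (v : Fin N → EuclideanSpace ℝ (Fin d)), (∀ i, ‖v i‖ ≤ 1) ∧ ∑ i, v i = 0 ∧
      ∀ π : Equiv.Perm (Fin N), ∃ k : ℕ, k ≤ N ∧
        c * Real.sqrt d ≤ ‖∑ i ∈ univ.filter (fun i : Fin N => (i : ℕ) < k), v (π i)‖) := by
  obtain ⟨C, hC⟩ := Vale.Agent.P262.steinitz_of_step Vale.Agent.P262.stepThm
  refine ⟨1 / 3, max C 1, by norm_num, lt_max_of_lt_right one_pos, fun d hd =>
    ⟨fun N v hv h0 => ?_, Vale.Agent.P262.steinitz_lower d hd⟩⟩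
  obtain ⟨π, hπ⟩ := hC d N v hv h0
  exact ⟨π, fun k _ => (hπ k).trans
    (mul_le_mul_of_nonneg_right (le_max_left _ _) (Real.sqrt_nonneg _))⟩

end Vale.Agent.Results.P262.SteinitzSqrt
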